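import Crest.Agent.N221.Bd.Ft
import Mathlib
import Crest.Agent.N221.Car.BrDefs

-- ▼ part N221/Bd/Br
section

/-! Row 221, block Bd: the differential of the chart, the lift of a Killing pair is the contact
vector field of `muK`. -/

set_option autoImplicit false
set_option linter.unusedSectionVars false
set_option linter.unusedVariables false

open MeasureTheory Set Filter Topology
open scoped ContDiff RealInnerProductSpace ENNReal
open Crest.GeometryTopology.Submanifold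
open Crest.Agent.R241.DDefs Crest.Agent.R241.D2
open Crest.Agent.R208.J Crest.Agent.R208.L

noncomputable section

namespace Crest.Agent.N221.Cov

variable {n N : ℕ} {a : ℝ} {S : Set (Euc N)} {G : Geo n N (-(a ^ 2)) S} (C : Cov G)
variable {x y ξ η ζ ζ' : Euc n} {v : Euc N} {g : Euc n → Euc n} {s σ : ℝ}
variable {Z : Type} [NormedAddCommGroup Z] [NormedSpace ℝ Z]

variable {Y Y' : Euc n → Euc n} {f f' : Euc n → ℝ}
variable (h : SH G)
include h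

lemma br_qq (hv : C.Un x v) : C.qq (C.ep x v) x = (C.pr x, v) := by
  rw [qq, C.W_ep_self h.hyp.a_pos hv]

lemma br_anti (hv : C.Un x v) : C.W (C.ep x (-v)) x = -C.W (C.ep x v) x := by
  rw [C.W_ep_self h.hyp.a_pos hv, C.W_ep_self h.hyp.a_pos hv.neg]

lemma br_K1 (hv : C.Un x v) (ζ : Euc n) : C.KW (C.ep x v) x ζ ∈ Vp G (C.pr x, v) := by
  rw [← C.br_qq h hv]
  exact C.KW_mem h (C.ep_ne_zero h.hyp.a_pos hv) x ζ

lemma br_K2 (hv : C.Un x v) (ζ : Euc n) : C.KW (C.ep x (-v)) x ζ ∈ Vp G (C.pr x, v) := by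
  rw [← Vp_rev]
  exact C.br_K1 h hv.neg ζ

lemma br_U_vel {q : TT N} (hq : q ∈ US G) : U G q q.2 = 0 := by
  rw [← (H.isU h.hyp).comp_Pv q hq, H.Pv_vel hq, map_zero]

lemma br_alg {q : TT N} (hq : q ∈ US G) {j j' : Euc N} (hj : j ∈ Vp G q) (hj' : j' ∈ Vp G q)
    (k k' : Euc N) : ⟪k' + AA G q k, H.Ei G q (U G q j - j')⟫ -
      ⟪j' + AA G q j, H.Ei G q (U G q k - k')⟫ = ⟪k', j⟫ - ⟪k, j'⟫ := by
  have hU : IsU G (U G) := H.isU h.hyp
  have e1 : H.Ei G q (U G q j - j') + H.Ei G q (j' + AA G q j) = j := by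
    rw [← map_add, ← add_assoc, sub_add_cancel, H.Ei_D hU h.hyp.a_pos hq, Pv_of_mem hq.1 hj]
  have e2 : U G q (H.Ei G q (j' + AA G q j)) - AA G q (H.Ei G q (U G q j - j')) = j' := by
    rw [map_add, map_add, map_sub, map_sub, A_Ei_U h hq]
    conv_rhs => rw [← U_add_A_Ei h hq hj']
    abel
  rw [← inner_Ei h hq (j' + AA G q j), inner_add_left, inner_sub_right,
    hU.symm _ (rev_US hq) k, ← hU.symm q hq, real_inner_comm k, real_inner_comm k']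
  have e3 := congrArg (fun w => ⟪k', w⟫) e1
  have e4 := congrArg (fun w => ⟪k, w⟫) e2
  simp only [inner_add_right, inner_sub_right] at e3 e4
  linarith



lemma Psi_gd (hv : C.Un x v) (t : ℝ) :
    C.PsiB (C.gd x v t) (C.vel x v t) = ((C.PsiB x v).1, (C.PsiB x v).2 + t) := by
  have ha := h.hyp.a_pos
  have e := C.b_gd ha (C.ep_ne_zero ha hv) x t
  rw [C.W_ep_self ha hv] at e
  simp only [PsiB]
  rw [C.ep_gd ha hv, C.ep_gd_neg ha hv, e, neg_sub, sub_eq_neg_add]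

lemma Psi_deck (hg : C.Deck g) (hv : C.Un x v) : C.PsiB (g x) v =
    ((C.act g (C.PsiB x v).1.1, C.act g (C.PsiB x v).1.2),
      (C.PsiB x v).2 + C.be g (C.PsiB x v).1.1) := by
  have ha := h.hyp.a_pos
  simp only [PsiB]
  rw [← C.act_ep ha hg hv, ← C.act_ep ha hg hv.neg, C.b_act ha hg (C.ep_ne_zero ha hv), neg_sub,
    sub_eq_neg_add]

lemma jK_mem (hv : C.Un x v) : C.jK Y Y' x v ∈ Vp G (C.pr x, v) :=
  Ei_mem h hv (add_mem (C.br_K1 h hv _) (C.br_K2 h hv _))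

lemma jK'_mem (hv : C.Un x v) : C.jK' Y Y' x v ∈ Vp G (C.pr x, v) :=
  sub_mem (C.br_K1 h hv _) (UDn.rev_mem' (H.isU h.hyp) hv _)

lemma jK'_eq (hv : C.Un x v) : C.jK' Y Y' x v =
    U G (C.pr x, v) (C.jK Y Y' x v) - C.KW (C.ep x (-v)) x (Y' (C.ep x (-v))) := by
  have e := U_add_A_Ei h hv
    (add_mem (C.br_K1 h hv (Y (C.ep x v))) (C.br_K2 h hv (Y' (C.ep x (-v)))))
  rw [jK', sub_eq_sub_iff_add_eq_add, ← e]
  rfl

lemma br_neg {X : Z → Euc n} {V : Z → Euc N} {z : Z} (hu : ∀ᶠ z' in 𝓝 z, C.Un (X z') (V z')) :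
    ∀ᶠ z' in 𝓝 z, C.Un (X z') (-V z') := hu.mono fun _ h' => h'.neg

/-- differential of the backward end point -/
lemma br_ep_neg {X : Z → Euc n} {V : Z → Euc N} {z : Z} (hX : DifferentiableAt ℝ X z)
    (hV : DifferentiableAt ℝ V z) (hu : ∀ᶠ z' in 𝓝 z, C.Un (X z') (V z')) (δ : Z) :
    ⟪C.ep (X z) (-V z), fderiv ℝ (fun z => C.ep (X z) (-V z)) z δ⟫ = 0 ∧
    C.KW (C.ep (X z) (-V z)) (X z) (fderiv ℝ (fun z => C.ep (X z) (-V z)) z δ) =
      U G (C.pr (X z), V z) (C.Dp (X z) (fderiv ℝ X z δ)) - G.P (C.pr (X z)) (fderiv ℝ V z δ) := by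
  obtain ⟨h1, h2⟩ := C.fderiv_ep h (V := fun z => -V z) hX hV.fun_neg (C.br_neg h hu) δ
  refine ⟨h1, h2.trans ?_⟩
  rw [fderiv_fun_neg, neg_apply, map_neg, neg_add_eq_sub]
  simp only [AA, rev, neg_neg]

/-- differential of the chart -/
lemma fderiv_Psi {X : Z → Euc n} {V : Z → Euc N} {z : Z} (hX : DifferentiableAt ℝ X z)
    (hV : DifferentiableAt ℝ V z) (hu : ∀ᶠ z' in 𝓝 z, C.Un (X z') (V z')) (δ : Z)
    {k k' : Euc N} (hk : k = C.Dp (X z) (fderiv ℝ X z δ))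
    (hk' : k' = G.P (C.pr (X z)) (fderiv ℝ V z δ))
    (hξ : ξ = C.ep (X z) (V z)) (hη : η = C.ep (X z) (-V z))
    (e : fderiv ℝ (fun z => C.PsiB (X z) (V z)) z δ = ((ζ, ζ'), σ)) :
    ⟪ξ, ζ⟫ = 0 ∧ ⟪η, ζ'⟫ = 0 ∧ C.KW ξ (X z) ζ = k' + AA G (C.pr (X z), V z) k ∧
      C.KW η (X z) ζ' = U G (C.pr (X z), V z) k - k' ∧ σ = ⟪V z, k⟫ + C.c1 ξ η ζ := by
  subst hk hk' hξ hη
  have ha := h.hyp.a_pos
  have hv := hu.self_of_nhds
  have d1 := (C.differentiableAt_ep h hX hV hu).hasFDerivAt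
  have d2 := (C.differentiableAt_ep h (V := fun z => -V z) hX hV.fun_neg
    (C.br_neg h hu)).hasFDerivAt
  have d3 := ((C.hasFDerivAt_b2 h (C.ep_ne_zero ha hv) (X z)).comp z
    (d1.prodMk hX.hasFDerivAt)).fun_neg
  have d : HasFDerivAt (fun z => C.PsiB (X z) (V z)) _ z := (d1.prodMk d2).prodMk d3
  rw [d.fderiv] at e
  obtain ⟨⟨rfl, rfl⟩, rfl⟩ : (fderiv ℝ (fun z => C.ep (X z) (V z)) z δ = ζ ∧
      fderiv ℝ (fun z => C.ep (X z) (-V z)) z δ = ζ') ∧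
      -(C.b1 (C.ep (X z) (V z)) (X z) (fderiv ℝ (fun z => C.ep (X z) (V z)) z δ) -
        ⟪C.W (C.ep (X z) (V z)) (X z), C.Dp (X z) (fderiv ℝ X z δ)⟫) = σ :=
    ⟨⟨congrArg (·.1.1) e, congrArg (·.1.2) e⟩, congrArg (·.2) e⟩
  refine ⟨(C.fderiv_ep h hX hV hu δ).1, (C.br_ep_neg h hX hV hu δ).1,
    (C.fderiv_ep h hX hV hu δ).2, (C.br_ep_neg h hX hV hu δ).2, ?_⟩
  rw [C.c1_eq h (GG_sub (C.ep_GG ha hv)) (C.br_anti h hv), C.W_ep_self ha hv,
    neg_apply]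
  ring

/-- the direction `(jK + μ v, jK')` is the lift `(Y, Y', f)` -/
lemma fderiv_Psi_lift (hK : C.Kill Y f Y' f') {X : Z → Euc n} {V : Z → Euc N} {z : Z}
    (hX : DifferentiableAt ℝ X z) (hV : DifferentiableAt ℝ V z)
    (hu : ∀ᶠ z' in 𝓝 z, C.Un (X z') (V z')) (δ : Z)
    (hk : C.Dp (X z) (fderiv ℝ X z δ) = C.jK Y Y' (X z) (V z) + C.muK Y f (X z) (V z) • V z)
    (hk' : G.P (C.pr (X z)) (fderiv ℝ V z δ) = C.jK' Y Y' (X z) (V z)) :
    fderiv ℝ (fun z => C.PsiB (X z) (V z)) z δ =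
      ((Y (C.ep (X z) (V z)), Y' (C.ep (X z) (-V z))), f (C.ep (X z) (V z))) := by
  have ha := h.hyp.a_pos
  have hv := hu.self_of_nhds
  have n1 := C.norm_ep ha hv
  have n2 := C.norm_ep ha hv.neg
  rcases e : fderiv ℝ (fun z => C.PsiB (X z) (V z)) z δ with ⟨⟨ζ, ζ'⟩, σ⟩
  obtain ⟨h1, h2, h3, h4, h5⟩ := C.fderiv_Psi h hX hV hu δ hk.symm hk'.symm rfl rfl e
  have a1 : AA G (C.pr (X z), V z) (V z) = 0 := H.Um_vel (H.isU h.hyp) hv
  have a2 : U G (C.pr (X z), V z) (V z) = 0 := br_U_vel h hv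
  have a3 : ⟪V z, C.jK Y Y' (X z) (V z)⟫ = 0 := by
    rw [real_inner_comm]; exact (mem_Vp.1 (C.jK_mem h hv)).2
  rw [map_add, map_smul, a1, smul_zero, add_zero, jK', sub_add_cancel] at h3
  rw [map_add, map_smul, a2, smul_zero, add_zero, C.jK'_eq h hv, sub_sub_cancel] at h4
  have e1 : ζ = Y (C.ep (X z) (V z)) := sub_eq_zero.1 (C.KW_eq_zero h (y := X z) n1
    (by rw [inner_sub_right, h1, hK.tan _ n1, sub_zero]) (by rw [map_sub, h3, sub_self]))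
  have e2 : ζ' = Y' (C.ep (X z) (-V z)) := sub_eq_zero.1 (C.KW_eq_zero h (y := X z) n2
    (by rw [inner_sub_right, h2, hK.tan' _ n2, sub_zero]) (by rw [map_sub, h4, sub_self]))
  rw [inner_add_right, a3, inner_smul_right, real_inner_self_eq_norm_sq, hv.norm, e1, muK] at h5
  rw [e1, e2, h5]
  simp

lemma contDiffAt_muK (hK : C.Kill Y f Y' f') {X : Z → Euc n} {V : Z → Euc N} {z : Z}
    (hX : ContDiffAt ℝ ∞ X z) (hV : ContDiffAt ℝ ∞ V z)
    (hu : ∀ᶠ z' in 𝓝 z, C.Un (X z') (V z')) :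
    ContDiffAt ℝ ∞ (fun z => C.muK Y f (X z) (V z)) z := by
  have ha := h.hyp.a_pos
  have hv := hu.self_of_nhds
  have n1 := C.norm_ep ha hv
  have c1 := C.contDiffAt_ep h hX hV hu
  have c2 := C.contDiffAt_ep h (V := fun z => -V z) hX hV.neg (C.br_neg h hu)
  have c3 := (C.contDiffAt_c1 h (GG_sub (C.ep_GG ha hv))).comp z (c1.prodMk c2)
  have c4 := (hK.sY _ n1).comp z c1
  exact ((hK.sf _ n1).comp z c1).sub (c3.clm_apply c4)

lemma muK_gd (hv : C.Un x v) (t : ℝ) :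
    C.muK Y f (C.gd x v t) (C.vel x v t) = C.muK Y f x v := by
  rw [muK, muK, C.ep_gd h.hyp.a_pos hv, C.ep_gd_neg h.hyp.a_pos hv]

/-- differential of `f ξ - c1 ξ η (Y ξ)` along curves of `GG` -/
lemma br_mu (hK : C.Kill Y f Y' f') {p r : Z → Euc n} {z : Z} (hp : DifferentiableAt ℝ p z)
    (hr : DifferentiableAt ℝ r z) (h1 : ∀ᶠ z' in 𝓝 z, ‖p z'‖ = 1) (hG : (p z, r z) ∈ GG n) :
    DifferentiableAt ℝ (fun z => f (p z) - C.c1 (p z) (r z) (Y (p z))) z ∧ ∀ δ,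
    fderiv ℝ (fun z => f (p z) - C.c1 (p z) (r z) (Y (p z))) z δ =
      C.MMb (p z) (r z) (fderiv ℝ p z δ) (Y' (r z)) -
        C.MMb (p z) (r z) (Y (p z)) (fderiv ℝ r z δ) := by
  have hO := GG_sub hG
  obtain ⟨D, hψ⟩ : DifferentiableAt ℝ
      (fun u : Euc n × Euc n => f u.1 - C.c1 u.1 u.2 (Y u.1)) (p z, r z) :=
    (((hK.sf _ hG.1).comp (p z, r z) contDiffAt_fst).sub ((C.contDiffAt_c1 h hO).clm_apply
      ((hK.sY _ hG.1).comp (p z, r z) contDiffAt_fst))).differentiableAt (by simp)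
  have d := hψ.comp z (hp.hasFDerivAt.prodMk hr.hasFDerivAt)
  refine ⟨d.differentiableAt, fun δ => ?_⟩
  have e2 := (hψ.comp (r z) (hasFDerivAt_prodMk_right (p z) (r z))).unique
    ((C.hasFDerivAt_c1 h hO (Y (p z))).const_sub (f (p z)))
  have e1 := (hψ.comp z (hp.hasFDerivAt.prodMk (hasFDerivAt_const (r z) z))).unique
    ((((C.hasFDerivAt_c2 h hO (Y' (r z))).comp z hp.hasFDerivAt).sub_const
      (f' (r z))).congr_of_eventuallyEq (by
        filter_upwards [h1, hp.continuousAt.eventually_ne hG.2.2] with z' a1 a2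
        have := hK.eq (p z') (r z) ⟨a1, hG.2.1, a2⟩
        simp only [Function.comp_apply]
        linarith))
  have e3 : D (fderiv ℝ p z δ, 0) = C.MMb (p z) (r z) (fderiv ℝ p z δ) (Y' (r z)) :=
    congrArg (fun L : Z →L[ℝ] ℝ => L δ) e1
  have e4 : D (0, fderiv ℝ r z δ) = -C.MMb (p z) (r z) (Y (p z)) (fderiv ℝ r z δ) :=
    congrArg (fun L : Euc n →L[ℝ] ℝ => L (fderiv ℝ r z δ)) e2
  rw [sub_eq_add_neg, ← e3, ← e4, ← map_add, Prod.mk_add_mk, add_zero, zero_add]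
  exact congrArg (fun L : Z →L[ℝ] ℝ => L δ) d.fderiv

/-- `∂^v μ = jK`, `∇^h μ = -jK'` -/
lemma fderiv_muK (hK : C.Kill Y f Y' f') {X : Z → Euc n} {V : Z → Euc N} {z : Z}
    (hX : DifferentiableAt ℝ X z) (hV : DifferentiableAt ℝ V z)
    (hu : ∀ᶠ z' in 𝓝 z, C.Un (X z') (V z')) :
    DifferentiableAt ℝ (fun z => C.muK Y f (X z) (V z)) z ∧ ∀ δ,
    fderiv ℝ (fun z => C.muK Y f (X z) (V z)) z δ =
      ⟪fderiv ℝ V z δ, C.jK Y Y' (X z) (V z)⟫ -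
        ⟪C.Dp (X z) (fderiv ℝ X z δ), C.jK' Y Y' (X z) (V z)⟫ := by
  have ha := h.hyp.a_pos
  have hv := hu.self_of_nhds
  have hG := C.ep_GG ha hv
  obtain ⟨d, e⟩ := C.br_mu h hK (C.differentiableAt_ep h hX hV hu)
    (C.differentiableAt_ep h (V := fun z => -V z) hX hV.fun_neg (C.br_neg h hu))
    (hu.mono fun _ h' => C.norm_ep ha h') hG
  refine ⟨d, fun δ => (e δ).trans ?_⟩
  have k1 : C.KW (C.ep (X z) (V z)) (X z) (Y (C.ep (X z) (V z))) =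
      C.jK' Y Y' (X z) (V z) + AA G (C.pr (X z), V z) (C.jK Y Y' (X z) (V z)) := by
    rw [jK', sub_add_cancel]
  have k2 : C.KW (C.ep (X z) (-V z)) (X z) (Y' (C.ep (X z) (-V z))) =
      U G (C.pr (X z), V z) (C.jK Y Y' (X z) (V z)) - C.jK' Y Y' (X z) (V z) := by
    rw [C.jK'_eq h hv, sub_sub_cancel]
  rw [C.MMb_eq h (GG_sub hG) (C.br_anti h hv), C.MMb_eq h (GG_sub hG) (C.br_anti h hv),
    C.br_qq h hv, (C.fderiv_ep h hX hV hu δ).2, (C.br_ep_neg h hX hV hu δ).2, k1, k2,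
    br_alg h hv (C.jK_mem h hv) (C.jK'_mem h hv), inner_P_left G hv.1.1,
    (P_eq_self G hv.1.1).1 (mem_Vp.1 (C.jK_mem h hv)).1]

end Crest.Agent.N221.Cov
end
end

-- ▼ part N221/Bd/Alg
section

/-! Row 221, step P7: the algebra along an axis. -/

set_option autoImplicit false

open scoped RealInnerProductSpace

namespace Crest.Agent.N221

namespace P7

variable {V : Type} [NormedAddCommGroup V] [InnerProductSpace ℝ V] [FiniteDimensional ℝ V]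

/-- the trace as a continuous functional -/
noncomputable def tr : (V →L[ℝ] V) →L[ℝ] ℝ :=
  LinearMap.toContinuousLinearMap ((LinearMap.trace ℝ V) ∘ₗ
    (ContinuousLinearMap.coeLM ℝ : (V →L[ℝ] V) →ₗ[ℝ] V →ₗ[ℝ] V))

lemma tr_apply (X : V →L[ℝ] V) : tr X = LinearMap.trace ℝ V (X : V →ₗ[ℝ] V) := rfl

lemma tr_comm (X Y : V →L[ℝ] V) : tr (X * Y) = tr (Y * X) :=
  LinearMap.trace_mul_comm ℝ (X : V →ₗ[ℝ] V) (Y : V →ₗ[ℝ] V)

lemma tr_skew {B : V →L[ℝ] V} (h : ∀ x y, ⟪B x, y⟫ = -⟪x, B y⟫) : tr B = 0 := by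
  rw [tr_apply, LinearMap.trace_eq_sum_inner _ (stdOrthonormalBasis ℝ V)]
  refine Finset.sum_eq_zero fun i _ => ?_
  have h1 := h (stdOrthonormalBasis ℝ V i) (stdOrthonormalBasis ℝ V i)
  rw [real_inner_comm] at h1
  have h2 : ⟪stdOrthonormalBasis ℝ V i, B (stdOrthonormalBasis ℝ V i)⟫ = 0 := by linarith
  exact h2

omit [FiniteDimensional ℝ V] in
lemma sym_deriv {F : ℝ → V →L[ℝ] V} {F' : V →L[ℝ] V} {t ε : ℝ} (h : HasDerivAt F F' t)
    (s : ∀ t x y, ⟪F t x, y⟫ = ε * ⟪x, F t y⟫) (x y : V) : ⟪F' x, y⟫ = ε * ⟪x, F' y⟫ := by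
  have h1 := (h.clm_apply (hasDerivAt_const t x)).inner ℝ (hasDerivAt_const t y)
  have h2 := ((hasDerivAt_const t x).inner ℝ (h.clm_apply (hasDerivAt_const t y))).const_mul ε
  simp only [s] at h1
  simpa using h1.unique h2

lemma step {U U' B J : ℝ → V →L[ℝ] V} {D : V →L[ℝ] V} {c : ℝ}
    (hU : ∀ t, HasDerivAt U (U' t) t) (hJ : ∀ t, HasDerivAt J (U t * J t) t)
    (iJ : ∀ t, IsUnit (J t)) (e : ∀ t, (B t - c • U t) * J t = J t * D) (t : ℝ) :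
    ∃ B', HasDerivAt B B' t ∧ c • U' t = B' + (B t * U t - U t * B t) := by
  have := FiniteDimensional.complete ℝ V
  have h1 : (fun t => B t - c • U t) = fun t => J t * D * Ring.inverse (J t) := funext fun t => by
    rw [← e, Ring.mul_inverse_cancel_right _ _ (iJ t)]
  have h2 : DifferentiableAt ℝ (fun t => B t - c • U t) t := by
    rw [h1]
    exact ((hJ t).differentiableAt.mul_const D).mul ((hJ t).differentiableAt.inverse (iJ t))
  obtain ⟨M, hM⟩ : ∃ M, HasDerivAt (fun t => B t - c • U t) M t := ⟨_, h2.hasDerivAt⟩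
  have h3 := hM.fun_mul (hJ t)
  simp only [e] at h3
  have h4 := h3.unique ((hJ t).mul_const D)
  rw [mul_assoc, ← e, ← mul_assoc, ← mul_assoc, ← add_mul] at h4
  have h5 := (iJ t).mul_right_cancel h4
  refine ⟨M + c • U' t, by simpa using hM.fun_add ((hU t).fun_const_smul c), ?_⟩
  rw [sub_mul, mul_sub, smul_mul_assoc, mul_smul_comm] at h5
  rw [eq_sub_of_add_eq h5]
  abel

end P7

open P7 in
theorem p7alg {V : Type} [NormedAddCommGroup V] [InnerProductSpace ℝ V] [FiniteDimensional ℝ V]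
    {U A U' A' B J J' : ℝ → V →L[ℝ] V} {D D' : V →L[ℝ] V} {c : ℝ}
    (hU : ∀ t, HasDerivAt U (U' t) t) (hA : ∀ t, HasDerivAt A (A' t) t)
    (sU : ∀ t x y, ⟪U t x, y⟫ = ⟪x, U t y⟫) (sA : ∀ t x y, ⟪A t x, y⟫ = ⟪x, A t y⟫)
    (sB : ∀ t x y, ⟪B t x, y⟫ = -⟪x, B t y⟫)
    (hJ : ∀ t, HasDerivAt J (U t ∘L J t) t) (hJ' : ∀ t, HasDerivAt J' (-(A t ∘L J' t)) t)
    (iJ : ∀ t, IsUnit (J t)) (iJ' : ∀ t, IsUnit (J' t))
    (e : ∀ t, (B t - c • U t) ∘L J t = J t ∘L D) (e' : ∀ t, (B t + c • A t) ∘L J' t = J' t ∘L D')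
    (hD : LinearMap.trace ℝ V (D : V →ₗ[ℝ] V) ≠ 0) (k : ℕ) (t : ℝ) :
    LinearMap.trace ℝ V (((U t - A t) ^ k : V →L[ℝ] V) : V →ₗ[ℝ] V) =
      LinearMap.trace ℝ V (((U 0 - A 0) ^ k : V →L[ℝ] V) : V →ₗ[ℝ] V) := by
  have hc : c ≠ 0 := by
    rintro rfl
    have h1 : B 0 * J 0 = J 0 * D := by
      have := e 0
      rwa [zero_smul, sub_zero] at this
    have h2 : D = Ring.inverse (J 0) * (B 0 * J 0) := by
      rw [h1, Ring.inverse_mul_cancel_left _ _ (iJ 0)]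
    apply hD
    rw [← tr_apply, h2, tr_comm, Ring.mul_inverse_cancel_right _ _ (iJ 0)]
    exact tr_skew (sB 0)
  have hO : ∀ t, c • (U' t - A' t) = B t * (U t - A t) - (U t - A t) * B t := by
    intro t
    obtain ⟨B', h1, h2⟩ := step hU hJ iJ e t
    obtain ⟨B'', h3, h4⟩ := step (U := fun t => -A t) (U' := fun t => -A' t) (B := B) (J := J')
      (D := D') (c := c) (fun t => (hA t).fun_neg) (fun t => by rw [neg_mul]; exact hJ' t) iJ'
      (fun t => by rw [smul_neg, sub_neg_eq_add]; exact e' t) t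
    have h5 : B' = 0 := by
      ext x
      refine ext_inner_right ℝ fun y => ?_
      have a1 := sym_deriv (ε := -1) h1 (fun t x y => by rw [sB, neg_one_mul]) x y
      have a2 := sym_deriv (ε := 1) (hU t) (fun t x y => by rw [sU, one_mul]) x y
      have a3 := congrArg (fun L : V →L[ℝ] V => ⟪L x, y⟫) h2
      have a4 := congrArg (fun L : V →L[ℝ] V => ⟪x, L y⟫) h2
      simp only [ContinuousLinearMap.smul_apply, ContinuousLinearMap.add_apply,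
        ContinuousLinearMap.sub_apply, ContinuousLinearMap.mul_apply, inner_add_left,
        inner_add_right, inner_sub_left, inner_sub_right, real_inner_smul_left,
        real_inner_smul_right] at a3 a4
      rw [sB, sU, sU, sB, a2] at a3
      rw [ContinuousLinearMap.zero_apply, inner_zero_left]
      linarith
    rw [← h1.unique h3, h5] at h4
    rw [h5] at h2
    simp only [smul_neg, mul_neg, neg_mul] at h4
    rw [smul_sub, sub_eq_add_neg, h2, h4, mul_sub, sub_mul]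
    abel
  have hk : ∀ (k : ℕ) (t : ℝ), ∃ P, HasDerivAt (fun t => (U t - A t) ^ k) P t ∧
      c • P = B t * (U t - A t) ^ k - (U t - A t) ^ k * B t := by
    intro k t
    induction k with
    | zero => exact ⟨0, by simpa using hasDerivAt_const t (1 : V →L[ℝ] V), by simp⟩
    | succ k ih =>
      obtain ⟨P, h1, h2⟩ := ih
      refine ⟨_, by simpa only [pow_succ] using h1.fun_mul ((hU t).fun_sub (hA t)), ?_⟩
      rw [smul_add, ← smul_mul_assoc, ← mul_smul_comm, h2, hO, pow_succ]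
      noncomm_ring
  have hd : ∀ t, HasDerivAt (fun t => tr ((U t - A t) ^ k)) 0 t := by
    intro t
    obtain ⟨P, h1, h2⟩ := hk k t
    have h3 := congrArg tr h2
    rw [map_smul, map_sub, tr_comm, sub_self, smul_eq_zero] at h3
    have h4 := (tr (V := V)).hasFDerivAt.comp_hasDerivAt t h1
    rwa [h3.resolve_left hc] at h4
  exact is_const_of_deriv_eq_zero (fun t => (hd t).differentiableAt) (fun t => (hd t).deriv) t 0

end Crest.Agent.N221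
end

-- ▼ part N221/Bd/P7
section

/-! Row 221, step P7: a Killing pair with linear Hamiltonian that fixes `(ξ, η)`. -/

set_option autoImplicit false
set_option linter.unusedSectionVars false
set_option linter.unusedVariables false
set_option maxHeartbeats 400000

open MeasureTheory Set Filter Topology
open scoped ContDiff RealInnerProductSpace ENNReal
open Crest.GeometryTopology.Submanifold
open Crest.Agent.R241.DDefs Crest.Agent.R241.D2
open Crest.Agent.R208.J Crest.Agent.R208.L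

noncomputable section

namespace Crest.Agent.N221.Cov

variable {n N : ℕ} {a : ℝ} {S : Set (Euc N)} {G : Geo n N (-(a ^ 2)) S} (C : Cov G)
variable {x y ξ η ζ ζ' : Euc n} {v : Euc N} {g : Euc n → Euc n} {s σ : ℝ}
variable {Z : Type} [NormedAddCommGroup Z] [NormedSpace ℝ Z]

variable {Y Y' : Euc n → Euc n} {f f' : Euc n → ℝ} {Zf : Euc n → Euc N} {c : ℝ}

/-- the Hamiltonian of the pair is `c + ⟪Z, v⟫` -/
structure Lin (Y : Euc n → Euc n) (f : Euc n → ℝ) (Zf : Euc n → Euc N) (c : ℝ) : Prop where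
  diff : Differentiable ℝ Zf
  tan : ∀ x, Zf x ∈ G.T (C.pr x)
  eq : ∀ x v, C.Un x v → C.muK Y f x v = c + ⟪Zf x, v⟫

namespace P7h

/-- a curve on the unit sphere with prescribed velocity -/
lemma circ {E : Type} [NormedAddCommGroup E] [InnerProductSpace ℝ E] {v w : E} (hv : ‖v‖ = 1)
    (hw : ⟪v, w⟫ = 0) : ∃ V : ℝ → E, HasDerivAt V w 0 ∧ V 0 = v ∧
      ∀ t, ‖V t‖ = 1 ∧ ∃ α β : ℝ, V t = α • v + β • w := by
  by_cases h0 : w = 0
  · exact ⟨fun _ => v, h0 ▸ hasDerivAt_const _ _, rfl, fun _ => ⟨hv, 1, 0, by simp⟩⟩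
  have h1 : ‖w‖ ≠ 0 := norm_ne_zero_iff.2 h0
  refine ⟨fun t => Real.cos (‖w‖ * t) • v + (Real.sin (‖w‖ * t) / ‖w‖) • w, ?_, by simp,
    fun t => ⟨?_, _, _, rfl⟩⟩
  · have h2 : HasDerivAt (fun t : ℝ => ‖w‖ * t) ‖w‖ 0 := by
      simpa using (hasDerivAt_id (0 : ℝ)).const_mul ‖w‖
    refine ((h2.cos.smul_const v).add ((h2.sin.div_const ‖w‖).smul_const w)).congr_deriv ?_
    simp [h1]
  · refine (pow_eq_one_iff_of_nonneg (norm_nonneg _) two_ne_zero).1 ?_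
    rw [norm_add_sq_real, inner_smul_left, inner_smul_right, hw, norm_smul, norm_smul, hv, mul_pow,
      mul_pow, Real.norm_eq_abs, Real.norm_eq_abs, sq_abs, sq_abs, div_pow,
      div_mul_cancel₀ _ (pow_ne_zero 2 h1)]
    simp

lemma hasDerivAt_op {L : ℝ → Op N} {L' : Op N} {t : ℝ}
    (h : ∀ w, HasDerivAt (fun t => L t w) (L' w) t) : HasDerivAt L L' t := by
  have key : ∀ M : Op N, M = ∑ i, ContinuousLinearMap.smulRightL ℝ (Euc N) (Euc N)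
      (EuclideanSpace.proj i) (M (EuclideanSpace.single i 1)) := fun M => by
    ext1 w
    conv_lhs => rw [← (EuclideanSpace.basisFun (Fin N) ℝ).sum_repr w]
    simp
  rw [show L = _ from funext fun t => key (L t), key L']
  exact HasDerivAt.fun_sum fun i _ => (ContinuousLinearMap.smulRightL ℝ (Euc N) (Euc N)
    (EuclideanSpace.proj i)).hasFDerivAt.comp_hasDerivAt t (h _)

lemma exists_left {m : ℕ} (K : Euc n →L[ℝ] Euc m) (hK : Function.Injective K) :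
    ∃ L : Euc m →L[ℝ] Euc n, ∀ u, L (K u) = u := by
  obtain ⟨L, hL⟩ := (K : Euc n →ₗ[ℝ] Euc m).exists_leftInverse_of_injective
    (LinearMap.ker_eq_bot.2 hK)
  exact ⟨LinearMap.toContinuousLinearMap L, fun u => LinearMap.congr_fun hL u⟩

lemma exists_R (y : Euc n) :
    ∃ R : Euc N →L[ℝ] Euc n, ∀ w ∈ G.T (C.pr y), C.Dp y (R w) = w := by
  obtain ⟨R, hR⟩ := exists_left (C.Dp y) (C.fderiv_pr_inj y)
  refine ⟨R, fun w hw => ?_⟩
  obtain ⟨u, rfl⟩ := C.fderiv_pr_surj y hw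
  exact congrArg (C.Dp y) (hR u)

variable {q : TT N}

lemma Pv_P (hq : q ∈ TS G) (w : Euc N) : Pv G q (G.P q.1 w) = Pv G q w := by
  rw [Pv_apply, Pv_apply, P_idem G hq.1, ← inner_P_left G hq.1, (P_eq_self G hq.1).1 hq.2]

lemma hat_pow (F : TT N → Op N) (hq : q ∈ TS G) (t : ℝ) (k : ℕ) :
    hat G (fun z => F z ^ k) q t = hat G F q t ^ k := by
  induction k with
  | zero => exact hat_id hq t
  | succ k ih =>
    rw [pow_succ (hat G F q t), ← ih]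
    exact hat_comp (fun z => F z ^ k) F hq t

/-- the unstable Jacobi tensor extended by the identity -/
def Jf (G : Geo n N (-(a ^ 2)) S) (q : TT N) (t : ℝ) : Op N :=
  Ju G q t + (ContinuousLinearMap.id ℝ (Euc N) - Pv G q)

lemma Jf_apply (t : ℝ) (w : Euc N) : Jf G q t w = Ju G q t w + (w - Pv G q w) := rfl

variable (hy : Hyp n N a S) (hq : q ∈ US G)
include hy hq

lemma isUnit_Jf (t : ℝ) : IsUnit (Jf G q t) :=
  ContinuousLinearMap.isUnit_iff_isUnit_toLinearMap.2 ((LinearMap.isUnit_iff_isUnit_det _).2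
    ((det_Ju hy.cpt (H.isU hy) hq t).trans_gt (Real.exp_pos _)).ne'.isUnit)

lemma Pv_Jf (t : ℝ) (w : Euc N) : Pv G q (Jf G q t w) = Ju G q t w := by
  rw [Jf_apply, map_add, map_sub, Pv_Pv hq, sub_self, add_zero,
    Pv_of_mem hq.1 (Ju_mem hy.cpt (H.isU hy) hq t w)]

lemma hat_Jf (t t' : ℝ) (w : Euc N) :
    hat G (U G) q t (Jf G q t' w) = hat G (U G) q t (Ju G q t' w) := by
  rw [← (H.isU hy).hat_Pv hq, Pv_Jf hy hq]

lemma hasDerivAt_Jf (t : ℝ) : HasDerivAt (Jf G q) (hat G (U G) q t ∘L Jf G q t) t :=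
  hasDerivAt_op fun w => ((hasDerivAt_Ju hy.cpt (H.isU hy) hq t w).add_const
    (w - Pv G q w)).congr_deriv (hat_Jf hy hq t t w).symm

lemma Ju_Pv (t : ℝ) (w : Euc N) : Ju G q t (Pv G q w) = Ju G q t w := by
  rw [Ju_apply, Ju_apply, Pv_Pv hq, (H.isU hy).comp_Pv q hq]

lemma Jf_mem (t : ℝ) {w : Euc N} (hw : w ∈ Vp G q) : Jf G q t w = Ju G q t w := by
  rw [Jf_apply, Pv_of_mem hq.1 hw, sub_self, add_zero]

end P7h

open P7h

variable (h : SH G)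
include h

lemma P7h.exists_lam (hξ : ‖ξ‖ = 1) (y : Euc n) : ∃ l : Euc N →L[ℝ] Euc n,
    (∀ w, ⟪ξ, l w⟫ = 0 ∧ H.Ei G (C.qq ξ y) (C.KW ξ y (l w)) = Pv G (C.qq ξ y) w) ∧
      ∀ ζ, l (H.Ei G (C.qq ξ y) (C.KW ξ y ζ)) = piO ξ ζ := by
  have h0 := bas_ne0 hξ
  have hq := C.qq_mem h h0 y
  have hU : IsU G (U G) := H.isU h.hyp
  have ha := h.hyp.a_pos
  obtain ⟨L, hL⟩ := exists_left (C.KT ξ y) (C.KT_inj h hξ y)
  have hK : ∀ ζ, ⟪ξ, ζ⟫ = 0 → L (C.KW ξ y ζ) = ζ := fun ζ hζ => by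
    rw [← hL ζ, hL ζ]
    conv_rhs => rw [← hL ζ]
    simp [KT, hζ]
  refine ⟨L ∘L UDn.E G (C.qq ξ y) ∘L Pv G (C.qq ξ y), fun w => ?_, fun ζ => ?_⟩
  · have hm : UDn.E G (C.qq ξ y) (Pv G (C.qq ξ y) w) ∈ Vp G (C.qq ξ y) := by
      rw [UDn.E_apply, Pv_Pv hq, sub_self, add_zero]
      exact Submodule.add_mem _ (hU.mem hq _) (UDn.rev_mem' hU hq _)
    obtain ⟨ζ, h1, h2⟩ := C.KW_surj h hξ y hm
    simp only [ContinuousLinearMap.comp_apply]
    rw [← h2, hK ζ h1, h2, H.Ei_E hU ha hq]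
    exact ⟨h1, rfl⟩
  · simp only [ContinuousLinearMap.comp_apply]
    rw [Pv_of_mem hq.1 (Ei_mem h hq (C.KW_mem h h0 y ζ)), H.E_Ei hU ha hq, ← C.KW_piO h h0, hK]
    simp [piO, inner_sub_right, inner_smul_right, hξ]

lemma P7h.KW_mem' (hp : (ξ, η) ∈ GG n) (hx : x = C.ft ξ η s) (ζ ζ' : Euc n) :
    C.KW ξ x ζ + C.KW η x ζ' ∈ Vp G (C.qq ξ x) := by
  refine Submodule.add_mem _ (C.KW_mem h (bas_ne0 hp.1) x ζ) ?_
  rw [← Vp_rev, ← C.qq_rev h (hx ▸ (C.ft_spec h.hyp.a_pos (GG_sub hp) s).1)]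
  exact C.KW_mem h (bas_ne0 hp.2.1) x ζ'

lemma Lin.jK (hK : C.Kill Y f Y' f') (hL : C.Lin Y f Zf c) (hv : C.Un x v) :
    C.jK Y Y' x v = Pv G (C.pr x, v) (Zf x) := by
  have key : ∀ w ∈ Vp G (C.pr x, v), ⟪w, C.jK Y Y' x v - Pv G (C.pr x, v) (Zf x)⟫ = 0 := by
    intro w hw
    obtain ⟨hw1, hw2⟩ := mem_Vp.1 hw
    obtain ⟨V, hV, hV0, hV1⟩ := circ (Un.norm C hv) ((real_inner_comm _ _).trans hw2)
    have hu : ∀ t, C.Un x (V t) := fun t => by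
      obtain ⟨h1, α, β, h2⟩ := hV1 t
      refine ⟨⟨C.pr_mem x, ?_⟩, h1⟩
      rw [h2]
      exact Submodule.add_mem _ (Submodule.smul_mem _ _ (Un.mem C hv)) (Submodule.smul_mem _ _ hw1)
    have h1 := (C.fderiv_muK h hK (X := fun _ : ℝ => x) (differentiableAt_const x)
      hV.differentiableAt (.of_forall hu)).2 1
    have h2 : HasDerivAt (fun t => C.muK Y f x (V t)) ⟪Zf x, w⟫ 0 := by
      simp only [hL.eq x _ (hu _)]
      simpa using ((hasDerivAt_const (0 : ℝ) (Zf x)).inner ℝ hV).const_add c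
    rw [fderiv_apply_one_eq_deriv, fderiv_apply_one_eq_deriv, h2.deriv, hV.deriv, hV0] at h1
    simp only [fderiv_fun_const, Pi.zero_apply, zero_apply, map_zero, inner_zero_left,
      sub_zero] at h1
    rw [inner_sub_right, ← h1, ← inner_Pv (Un.ts C hv), Pv_of_mem (Un.ts C hv) hw,
      real_inner_comm, sub_self]
  exact sub_eq_zero.1 (inner_self_eq_zero.1 (key _ (Submodule.sub_mem _ (C.jK_mem h hv)
    (Pv_mem (Un.ts C hv) (Un.norm C hv) _))))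

lemma Lin.skew (hL : C.Lin Y f Zf c) (x e e' : Euc n) :
    ⟪fderiv ℝ Zf x e, C.Dp x e'⟫ = -⟪C.Dp x e, fderiv ℝ Zf x e'⟫ := by
  have k1 : ∀ e, ‖C.Dp x e‖ = 1 → ⟪fderiv ℝ Zf x e, C.Dp x e⟫ = 0 := by
    intro e he
    have hm : C.Dp x e ∈ G.T (C.pr x) := C.fderiv_pr_mem x e
    have hv : C.Un x (C.Dp x e) := ⟨⟨C.pr_mem x, hm⟩, he⟩
    have e1 : deriv (C.gd x (C.Dp x e)) 0 = e := by
      have := C.fderiv_pr_deriv_gd hm 0
      rw [gd_zero, vel_zero] at this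
      exact C.fderiv_pr_inj x this
    have h1 : HasDerivAt (fun t => Zf (C.gd x (C.Dp x e) t)) (fderiv ℝ Zf x e) 0 := by
      have := (hL.diff (C.gd x (C.Dp x e) 0)).hasFDerivAt.comp_hasDerivAt 0
        (C.hasDerivAt_gd x (C.Dp x e) 0)
      rwa [gd_zero, e1] at this
    have h2 : HasDerivAt (C.vel x (C.Dp x e)) (dP G (C.pr x, C.Dp x e) (C.Dp x e)) 0 := by
      have := (hasDerivAt_fl G (complete G (Un.ts C hv) 0)).snd
      rwa [fl_zero] at this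
    have h3 : ∀ t, ⟪Zf (C.gd x (C.Dp x e) t), C.vel x (C.Dp x e) t⟫ =
        C.muK Y f x (C.Dp x e) - c := fun t => by
      rw [← C.muK_gd h hv t, hL.eq _ _ (Un.vel C hv t), add_sub_cancel_left]
    have h4 := h1.inner ℝ h2
    simp only [h3] at h4
    have h5 := h4.unique (hasDerivAt_const _ _)
    rw [gd_zero, vel_zero, ← (P_eq_self G (C.pr_mem x)).1 (hL.tan x), inner_P_left G (C.pr_mem x),
      dP_tangent_normal (Un.ts C hv) hm, inner_zero_right, zero_add] at h5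
    exact h5
  have k2 : ∀ e, ⟪fderiv ℝ Zf x e, C.Dp x e⟫ = 0 := fun e => by
    by_cases h0 : C.Dp x e = 0
    · rw [h0, inner_zero_right]
    · have h1 := norm_ne_zero_iff.2 h0
      have := k1 (‖C.Dp x e‖⁻¹ • e) (by rw [map_smul, norm_smul, norm_inv, norm_norm,
        inv_mul_cancel₀ h1])
      rw [map_smul, map_smul, real_inner_smul_left, real_inner_smul_right] at this
      simpa [h1] using this
  have h1 := k2 (e + e')
  rw [map_add, map_add, inner_add_left, inner_add_right, inner_add_right, k2, k2] at h1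
  rw [real_inner_comm (fderiv ℝ Zf x e')]
  linarith

/-- the base component of the lift -/
lemma Lin.lift (hK : C.Kill Y f Y' f') (hL : C.Lin Y f Zf c) (hp : (ξ, η) ∈ GG n) (s c' : ℝ) :
    fderiv ℝ (fun p => C.pr (C.FT p)) ((ξ, η), s) ((Y ξ, Y' η), f ξ - c') =
      Zf (C.ft ξ η s) - (c' - c) • C.W ξ (C.ft ξ η s) := by
  have ha := h.hyp.a_pos
  have hv := C.un_W ha (bas_ne0 hp.1) (C.ft ξ η s)
  have h1 := Lin.jK C h hK hL hv
  have h2 := hL.eq _ _ hv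
  rw [muK] at h2
  rw [Cov.jK] at h1
  rw [(C.ep_ft ha hp s).1, (C.ep_ft ha hp s).2] at h1 h2
  have h3 := C.fderiv_FT h (GG_sub hp) (s := s) rfl (Y ξ) (Y' η) (f ξ - c')
  have h4 := fderiv_comp ((ξ, η), s) (C.diff_pr (C.FT ((ξ, η), s)))
    ((C.contDiffAt_FT h (GG_sub hp) s).differentiableAt (by simp))
  refine (congrArg (fun L : _ →L[ℝ] Euc N => L ((Y ξ, Y' η), f ξ - c')) h4).trans (h3.trans ?_)
  rw [qq, h1, Pv_apply, (P_eq_self G (C.pr_mem _)).1 (hL.tan _),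
    show f ξ - c' - C.c1 ξ η (Y ξ) = c + ⟪Zf (C.ft ξ η s), C.W ξ (C.ft ξ η s)⟫ - c' by
      rw [← h2]; ring, real_inner_comm]
  module

/-- linearisation at a fixed pair -/
lemma Lin.lin (hK : C.Kill Y f Y' f') (hL : C.Lin Y f Zf c) (hp : (ξ, η) ∈ GG n) (h1 : Y ξ = 0)
    (h2 : Y' η = 0) (hx : x = C.ft ξ η s) (hζ : ⟪ξ, ζ⟫ = 0) (hζ' : ⟪η, ζ'⟫ = 0) {e : Euc n}
    (he : C.Dp x e = H.Ei G (C.qq ξ x) (C.KW ξ x ζ + C.KW η x ζ')) :
    H.Ei G (C.qq ξ x) (C.KW ξ x (fderiv ℝ Y ξ ζ) + C.KW η x (fderiv ℝ Y' η ζ')) =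
      Pv G (C.qq ξ x) (fderiv ℝ Zf x e) - (f ξ - c) •
        (C.KW ξ x ζ - AA G (C.qq ξ x) (H.Ei G (C.qq ξ x) (C.KW ξ x ζ + C.KW η x ζ'))) := by
  have hO := GG_sub hp
  have h0 := bas_ne0 hp.1
  have hq := C.qq_mem h h0 x
  have hU : IsU G (U G) := H.isU h.hyp
  obtain ⟨V, hV, hV0, hV1⟩ := circ hp.1 hζ
  obtain ⟨V', hV', hV0', hV1'⟩ := circ hp.2.1 hζ'
  let p : ℝ → (Euc n × Euc n) × ℝ := fun τ => ((V τ, V' τ), s + τ * C.c1 ξ η ζ)
  have hp0 : p 0 = ((ξ, η), s) := by simp [p, hV0, hV0']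
  have hp1 : HasDerivAt p ((ζ, ζ'), C.c1 ξ η ζ) 0 :=
    (hV.prodMk hV').prodMk (by simpa using ((hasDerivAt_id (0 : ℝ)).mul_const _).const_add s)
  have hne : ∀ᶠ τ in 𝓝 (0 : ℝ), V τ ≠ V' τ :=
    (hV.continuousAt.ne_iff_eventually_ne hV'.continuousAt).1 (by rw [hV0, hV0']; exact hp.2.2)
  have hFT := C.contDiffAt_FT h hO s
  have hΓ : ContDiffAt ℝ ∞ (fun p => C.pr (C.FT p)) ((ξ, η), s) :=
    C.pr_smooth.contDiffAt.comp _ hFT
  -- the left side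
  have d1 : DifferentiableAt ℝ (fderiv ℝ fun p => C.pr (C.FT p)) (p 0) :=
    hp0 ▸ (hΓ.fderiv_right (m := ∞) (by simp)).differentiableAt (by simp)
  have dY := ((hK.sY ξ hp.1).differentiableAt (by simp)).hasFDerivAt.comp_hasDerivAt_of_eq 0 hV
    hV0.symm
  have dY' := ((hK.sY' η hp.2.1).differentiableAt (by simp)).hasFDerivAt.comp_hasDerivAt_of_eq 0
    hV' hV0'.symm
  have df := ((hK.sf ξ hp.1).differentiableAt (by simp)).hasFDerivAt.comp_hasDerivAt_of_eq 0 hV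
    hV0.symm
  have l1 := (d1.hasFDerivAt.comp_hasDerivAt 0 hp1).clm_apply
    ((dY.prodMk dY').prodMk (df.sub_const (f ξ)))
  -- the right side
  have dF := (hFT.differentiableAt (by simp)).hasFDerivAt
  have e1 : fderiv ℝ C.FT ((ξ, η), s) ((ζ, ζ'), C.c1 ξ η ζ) = e := by
    refine C.fderiv_pr_inj x ((C.fderiv_FT h hO hx ζ ζ' _).trans ?_)
    rw [sub_self, zero_smul, add_zero]
    exact he.symm
  have dZ := (hL.diff x).hasFDerivAt.comp_hasDerivAt_of_eq 0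
    (dF.comp_hasDerivAt_of_eq 0 hp1 hp0.symm) (hx.trans (congrArg C.FT hp0).symm)
  have dW : DifferentiableAt ℝ (fun p => C.W p.1.1 (C.FT p)) ((ξ, η), s) :=
    ((C.contDiffAt_W h h0 (C.ft ξ η s)).comp (((ξ, η), s) : (Euc n × Euc n) × ℝ)
      (f := fun p => (p.1.1, C.FT p))
      ((contDiffAt_fst.comp _ contDiffAt_fst).prodMk hFT)).differentiableAt (by simp)
  have r1 := dZ.sub ((dW.hasFDerivAt.comp_hasDerivAt_of_eq 0 hp1 hp0.symm).const_smul (f ξ - c))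
  have k := l1.unique (r1.congr_of_eventuallyEq (hne.mono fun τ hτ =>
    Lin.lift C h hK hL ⟨(hV1 τ).1, (hV1' τ).1, hτ⟩ _ (f ξ)))
  simp only [Function.comp_apply, hV0, hV0', h1, h2, sub_self, Prod.mk_zero_zero, map_zero,
    zero_add, hp0, e1] at k
  rw [fderiv_fun_comp _ (C.diff_pr _) dF.differentiableAt,
    show C.FT ((ξ, η), s) = x from hx.symm] at k
  have k1 := congrArg (Pv G (C.qq ξ x)) ((C.fderiv_FT h hO hx _ _ _).symm.trans k)
  rw [map_add, map_smul, show Pv G (C.qq ξ x) (C.W ξ x) = 0 from H.Pv_vel hq, smul_zero, add_zero,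
    Pv_of_mem hq.1 (Ei_mem h hq (KW_mem' C h hp hx _ _)), map_sub, map_smul,
    ← Pv_P hq.1 (fderiv ℝ (fun p => C.W p.1.1 (C.FT p)) _ _)] at k1
  rw [k1, show (C.qq ξ x).1 = C.pr x from rfl, C.fderiv_WFT h hO hx, map_sub,
    Pv_of_mem hq.1 (C.KW_mem h h0 x ζ), H.Pv_Um hU hq]

theorem p7 (hK : C.Kill Y f Y' f') (hL : C.Lin Y f Zf c) (hp : (ξ, η) ∈ GG n) (h1 : Y ξ = 0)
    (h2 : Y' η = 0)
    (h3 : LinearMap.trace ℝ (Euc n) ((fderiv ℝ Y ξ ∘L piO ξ : Euc n →L[ℝ] Euc n) :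
      Euc n →ₗ[ℝ] Euc n) ≠ 0) (k : ℕ) (s t : ℝ) :
    trO G k (fl G (C.qq ξ (C.ft ξ η s), t)) = trO G k (C.qq ξ (C.ft ξ η s)) := by
  have ha := h.hyp.a_pos
  have hO := GG_sub hp
  have h0 := bas_ne0 hp.1
  have h0' := bas_ne0 hp.2.1
  have hU : IsU G (U G) := H.isU h.hyp
  set x := C.ft ξ η s with hx
  set q := C.qq ξ x with hqd
  have hq : q ∈ US G := C.qq_mem h h0 x
  have hr : rev q ∈ US G := rev_US hq
  have hW : C.W η x = -C.W ξ x := (C.ft_spec ha hO s).1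
  have hη : C.qq η x = rev q := C.qq_rev h hW
  have hgd : ∀ t, C.gd x (C.W ξ x) t = C.ft ξ η (s + t) := C.gd_ft ha hO s
  have hqt : ∀ t, C.qq ξ (C.ft ξ η (s + t)) = fl G (q, t) := fun t => by
    rw [← hgd, C.qq_gd h h0]
  have hpt : ∀ t, C.pr (C.ft ξ η (s + t)) = (fl G (q, t)).1 := fun t => congrArg Prod.fst (hqt t)
  have f1 : ∀ t ζ, H.Ei G (fl G (q, t)) (C.KW ξ (C.ft ξ η (s + t)) ζ) =
      PT G q t (Ju G q t (H.Ei G q (C.KW ξ x ζ))) := fun t ζ => by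
    rw [← hgd, C.KW_flow h h0, H.Ei_E hU ha (fl_US hq t)]
  have f2 : ∀ t ζ, H.Ei G (fl G (q, t)) (C.KW η (C.ft ξ η (s + t)) ζ) =
      PT G q t (Ju G (rev q) (-t) (H.Ei G (rev q) (C.KW η x ζ))) := fun t ζ => by
    have := C.KW_flow h h0' x ζ (-t)
    rw [hη, hW, gd_neg, fl_rev' hq.1, PT_rev hq.1, neg_neg, E_rev h, hgd] at this
    rw [this, H.Ei_E hU ha (fl_US hq t)]
  obtain ⟨l, hl1, hl2⟩ := exists_lam C h hp.1 x
  obtain ⟨l', hl1', -⟩ := exists_lam C h hp.2.1 x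
  rw [hη] at hl1'
  choose R hR using exists_R C
  let B : ℝ → Op N := fun t => PTi G q t ∘L Pv G (fl G (q, t)) ∘L
    fderiv ℝ Zf (C.ft ξ η (s + t)) ∘L R (C.ft ξ η (s + t)) ∘L Pv G (fl G (q, t)) ∘L PT G q t
  have hB : ∀ t w, B t w = PTi G q t (Pv G (fl G (q, t)) (fderiv ℝ Zf (C.ft ξ η (s + t))
      (R (C.ft ξ η (s + t)) (PT G q t (Pv G q w))))) := fun t w => by
    rw [← Pv_PT hq.1]
    rfl
  have hRP : ∀ t w, w ∈ Vp G q → C.Dp (C.ft ξ η (s + t)) (R (C.ft ξ η (s + t)) (PT G q t w)) =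
      PT G q t w := fun t w hw => hR _ _ (hpt t ▸ PT_mem hq.1 t (mem_Vp.1 hw).1)
  have hA : ∀ t w, hat G (U G) (rev q) (-t) w = PTi G q t (U G (rev (fl G (q, t))) (PT G q t w)) :=
    fun t w => by rw [hat_rev _ hq.1, neg_neg, hat_apply]
  have key := p7alg (U := hat G (U G) q) (A := fun t => hat G (U G) (rev q) (-t)) (B := B)
    (J := Jf G q) (J' := fun t => Jf G (rev q) (-t)) (c := f ξ - c)
    (D := (H.Ei G q ∘L C.KW ξ x) ∘L fderiv ℝ Y ξ ∘L l)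
    (D' := (H.Ei G (rev q) ∘L C.KW η x) ∘L fderiv ℝ Y' η ∘L l')
    (hU.ric q hq) (fun t => (hU.ric _ hr (-t)).scomp t (hasDerivAt_neg t))
    (hU.hat_symm hq) (fun t => hU.hat_symm hr (-t)) (fun t u w => ?_) (hasDerivAt_Jf h.hyp hq)
    (fun t => ((hasDerivAt_Jf h.hyp hr (-t)).scomp t (hasDerivAt_neg t)).congr_deriv
      (neg_one_smul ℝ _)) (isUnit_Jf h.hyp hq) (fun t => isUnit_Jf h.hyp hr (-t))
    (fun t => ?_) (fun t => ?_) ?_ k t
  · simp only [neg_zero, hat_zero] at key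
    rw [trO, trO, ← key, hat_rev _ hq.1, neg_neg, ← hat_sub, ← hat_pow _ hq.1, trace_hat _ hq.1]
  · have hz := (fl_US hq t).1
    have e := Lin.skew C h hL (C.ft ξ η (s + t)) (R (C.ft ξ η (s + t)) (PT G q t (Pv G q u)))
      (R (C.ft ξ η (s + t)) (PT G q t (Pv G q w)))
    rw [hRP t _ (Pv_mem hq.1 hq.2 w), hRP t _ (Pv_mem hq.1 hq.2 u)] at e
    rw [hB, hB, inner_PTi_left, inner_PTi_right, inner_Pv hz, ← inner_Pv hz (PT G q t u),
      Pv_PT hq.1, Pv_PT hq.1, e]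
  · ext1 w
    have e1 : H.Ei G (fl G (q, t)) (C.KW ξ (C.ft ξ η (s + t)) (l w)) = PT G q t (Ju G q t w) := by
      rw [f1, (hl1 w).2, Ju_Pv h.hyp hq]
    have e2 := Lin.lin C h hK hL hp h1 h2 (x := C.ft ξ η (s + t)) rfl (hl1 w).1
      (inner_zero_right η) (e := R (C.ft ξ η (s + t)) (PT G q t (Ju G q t w)))
      (by rw [hRP t _ (Ju_mem h.hyp.cpt hU hq t w), map_zero, add_zero, hqt, e1])
    have e3 := U_add_A_Ei h (fl_US hq t) (hqt t ▸ C.KW_mem h h0 (C.ft ξ η (s + t)) (l w))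
    simp only [map_zero, add_zero, hqt] at e2
    rw [← eq_sub_iff_add_eq] at e3
    rw [← e3, e1, f1] at e2
    simp only [ContinuousLinearMap.comp_apply, sub_apply, smul_apply]
    rw [Jf_mem h.hyp hq t (Ei_mem h hq (C.KW_mem h h0 x _)), hB, Pv_Jf h.hyp hq, hat_Jf h.hyp hq,
      hat_apply, ← map_smul, ← map_sub, ← e2, PTi_PT hq.1]
  · ext1 w
    have e1 : H.Ei G (fl G (q, t)) (C.KW η (C.ft ξ η (s + t)) (l' w)) =
        PT G q t (Ju G (rev q) (-t) w) := by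
      rw [f2, (hl1' w).2, Ju_Pv h.hyp hr]
    have e2 := Lin.lin C h hK hL hp h1 h2 (x := C.ft ξ η (s + t)) rfl (inner_zero_right ξ)
      (hl1' w).1 (e := R (C.ft ξ η (s + t)) (PT G q t (Ju G (rev q) (-t) w)))
      (by rw [hRP t _ (Vp_rev q ▸ Ju_mem h.hyp.cpt hU hr (-t) w), map_zero, zero_add, hqt, e1])
    simp only [map_zero, zero_add, hqt, zero_sub, smul_neg, sub_neg_eq_add] at e2
    rw [e1, f2] at e2
    simp only [ContinuousLinearMap.comp_apply, add_apply, smul_apply]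
    rw [Jf_mem h.hyp hr (-t) (Ei_mem h hr (hη ▸ C.KW_mem h h0' x _)), hB, ← Pv_rev q,
      Pv_Jf h.hyp hr, hat_Jf h.hyp hr, hA, ← map_smul, ← map_add, ← e2, PTi_PT hq.1]
  · refine fun e => h3 (Eq.trans ?_ e)
    refine Eq.trans ?_ (LinearMap.trace_comp_comm'
      ((H.Ei G q ∘L C.KW ξ x : Euc n →L[ℝ] Euc N) : Euc n →ₗ[ℝ] Euc N)
      ((fderiv ℝ Y ξ ∘L l : Euc N →L[ℝ] Euc n) : Euc N →ₗ[ℝ] Euc n))
    congr 1
    ext1 ζ
    exact congrArg (fderiv ℝ Y ξ) (hl2 ζ).symm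

end Crest.Agent.N221.Cov
end
end

-- ▼ part N221/T6/Defs

/-!
Row 221, step P6 (helper34): the Hamiltonian of a Killing pair is affine in `v`.

`μ = muK Y f` and `u = e^{h s} φ(ξ)` are polynomial in `v` (finite degree).  The lift `Ỹ` of the
pair acts by `Ỹ u = {μ, u} + h (μ - E μ) u` on `|v| = 1`; its top degree part `(1 - k) h P_k A_J`
cannot be a multiple of `|v|²` when `k ≥ 2`.
-/

set_option autoImplicit false

open MvPolynomial MeasureTheory Set Function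
open scoped ContDiff RealInnerProductSpace
open Crest.GeometryTopology.Submanifold
open Crest.Agent.R241.DDefs Crest.Agent.R241.D2
open Crest.Agent.R208.J Crest.Agent.R208.L
open Crest.Agent.R086 Crest.Agent.R086.SH

noncomputable section

namespace Crest.Agent.N221

/-- the function `e^{h s} φ(ξ)` on the unit tangent bundle of the cover -/
def Cov.uu {n N : ℕ} {a : ℝ} {S : Set (Euc N)} {G : Geo n N (-(a ^ 2)) S} (C : Cov G)
    (hh : ℝ) (φ : Euc n → ℝ) (x : Euc n) (w : Euc N) : ℝ :=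
  Real.exp (hh * (C.PsiB x w).2) * φ (C.ep x w)

namespace T6

open Car

variable {n : ℕ}

/-- a fibre polynomial as a function -/
def ev (P : PP n) (x v : EE n) : ℝ := pfun (ax x P) v

/-- Euler operator -/
def Eu (P : PP n) : PP n := ∑ i, MvPolynomial.X i * pderiv i P

/-- Poisson bracket -/
def br (F : Fr n) (P A : PP n) : PP n :=
  ∑ i, (pderiv i P * F.alg.nab i A - F.alg.nab i P * pderiv i A)

/-- a product of two harmonic polynomials is not of lower degree on the sphere -/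
def AlgS : Prop := ∀ n : ℕ, 3 ≤ n → ∀ (k J : ℕ) (p A q : P0 n), Sph.Harm k p → Sph.Harm J A →
  (∀ s : Fin n →₀ ℕ, k + J ≤ s.degree → coeff s q = 0) →
  (∀ v : EE n, ‖v‖ = 1 → pfun (p * A) v = pfun q v) → p = 0 ∨ A = 0

/-- derivatives of `ev` -/
def EvS : Prop := ∀ (n : ℕ) (P : PP n), SmU (ev P) ∧
  (∀ x v u : EE n,
    fderiv ℝ (uncurry (ev P)) (x, v) (0, u) = ∑ i, u i * ev (pderiv i P) x v) ∧
  ∀ (F : Fr n) (i : Fin n) (x v : EE n), F.nabU i (ev P) x v = ev (F.alg.nab i P) x v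

/-- the top degree argument -/
def TopS : Prop := ∀ n : ℕ, 3 ≤ n → ∀ (F : Fr n) (hh : ℝ), hh ≠ 0 →
  ∀ (D D' : ℕ) (P : ℕ → PP n) (κ : Type) [Fintype κ] (A : κ → ℕ → PP n),
  (∀ l x, Sph.Harm l (ax x (P l))) → (∀ j l x, Sph.Harm l (ax x (A j l))) →
  (∀ x, ∃ j v, ‖v‖ = 1 ∧ ev (∑ l ∈ Finset.range D', A j l) x v ≠ 0) →
  (∀ j, ∃ c : κ → ℝ, ∀ x v, ‖v‖ = 1 →
    ∑ j', c j' * ev (∑ l ∈ Finset.range D', A j' l) x v =
      ev (br F (∑ l ∈ Finset.range D, P l) (∑ l ∈ Finset.range D', A j l) +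
        hh • ((∑ l ∈ Finset.range D, P l - Eu (∑ l ∈ Finset.range D, P l)) *
          ∑ l ∈ Finset.range D', A j l)) x v) →
  ∀ l, 2 ≤ l → l < D → P l = 0

/-- finite degree for a finite family given on unit vectors only -/
def FamS : Prop := ∀ (n N : ℕ) (a : ℝ) (S : Set (Euc N)) (G : Geo n N (-(a ^ 2)) S) (C : Cov G)
  (Φ : Frm C), Hyp n N a S →
  ∀ (ι : Type) [Fintype ι] (L : ι → Euc n → Euc N → ℝ) (k : ℝ),
  (∀ i x v, ‖v‖ = 1 → ContDiffAt ℝ ∞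
    (fun z : Euc n × Euc n => L i z.1 (Φ.O z.1 (‖z.2‖⁻¹ • z.2))) (x, v)) →
  (∀ i x w t, C.Un x w → L i (C.gd x w t) (C.vel x w t) = Real.exp (k * t) * L i x w) →
  (∀ g, C.Deck g → ∀ i, ∃ c : ι → ℝ, ∀ x w, C.Un x w → L i (g x) w = ∑ j, c j * L j x w) →
  ∃ (D : ℕ) (P : ι → ℕ → PP n), (∀ i l x, Sph.Harm l (ax x (P i l))) ∧
    ∀ i x v, ‖v‖ = 1 → L i x (Φ.O x v) = ev (∑ l ∈ Finset.range D, P i l) x v

/-- the bracket formula -/
def BrS : Prop := ∀ (n N : ℕ) (a : ℝ) (S : Set (Euc N)) (G : Geo n N (-(a ^ 2)) S) (C : Cov G)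
  (Φ : Frm C), SH G → ∀ (Y : Euc n → Euc n) (f : Euc n → ℝ) (Y' : Euc n → Euc n) (f' : Euc n → ℝ),
  C.Kill Y f Y' f' → ∀ (hh : ℝ) (φ : Euc n → ℝ), (∀ ξ, ‖ξ‖ = 1 → ContDiffAt ℝ ∞ φ ξ) →
  ∀ P A : PP n, (∀ x v, ‖v‖ = 1 → C.muK Y f x (Φ.O x v) = ev P x v) →
  (∀ x v, ‖v‖ = 1 → C.uu hh φ x (Φ.O x v) = ev A x v) → ∀ x v, ‖v‖ = 1 →
  C.uu hh (fun ξ => fderiv ℝ φ ξ (Y ξ) + hh * f ξ * φ ξ) x (Φ.O x v) =
    ev (br Φ.fr P A + hh • ((P - Eu P) * A)) x v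

/-- a flow invariant function of degree `≤ 1` -/
def AffS : Prop := ∀ (n N : ℕ) (a : ℝ) (S : Set (Euc N)) (G : Geo n N (-(a ^ 2)) S) (C : Cov G)
  (Φ : Frm C), SH G → ∀ (Y : Euc n → Euc n) (f : Euc n → ℝ) (D : ℕ) (P : ℕ → PP n),
  (∀ l x, Sph.Harm l (ax x (P l))) → (∀ l, 2 ≤ l → l < D → P l = 0) →
  (∀ x v, ‖v‖ = 1 → C.muK Y f x (Φ.O x v) = ev (∑ l ∈ Finset.range D, P l) x v) →
  ∃ Z c, C.Lin Y f Z c

/-- STEP P6 -/
def T6S : Prop := ∀ (n N : ℕ) (a : ℝ) (S : Set (Euc N)) (G : Geo n N (-(a ^ 2)) S) (C : Cov G),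
  SH G → ∀ hh : ℝ, hh ≠ 0 →
  ∀ (ι : Type) [Fintype ι] (Y : ι → Euc n → Euc n) (f : ι → Euc n → ℝ),
  (∀ i, ∃ Y' f', C.Kill (Y i) (f i) Y' f') →
  (∀ g, C.Deck g → ∀ i, ∃ c : ι → ℝ, ∀ x w, C.Un x w →
    C.muK (Y i) (f i) (g x) w = ∑ j, c j * C.muK (Y j) (f j) x w) →
  ∀ (κ : Type) [Fintype κ] (φ : κ → Euc n → ℝ),
  (∀ j ξ, ‖ξ‖ = 1 → ContDiffAt ℝ ∞ (φ j) ξ) → (∃ j ξ, ‖ξ‖ = 1 ∧ φ j ξ ≠ 0) →
  (∀ g, C.Deck g → ∀ j, ∃ c : κ → ℝ, ∀ ξ, ‖ξ‖ = 1 →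
    Real.exp (hh * C.be g ξ) * φ j (C.act g ξ) = ∑ j', c j' * φ j' ξ) →
  (∀ i j, ∃ c : κ → ℝ, ∀ ξ, ‖ξ‖ = 1 →
    fderiv ℝ (φ j) ξ (Y i ξ) + hh * f i ξ * φ j ξ = ∑ j', c j' * φ j' ξ) →
  ∀ i, ∃ Z c, C.Lin (Y i) (f i) Z c

end T6

end Crest.Agent.N221
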